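import Vale.Agent.P245.Bdl.B2

/-! # P245 (helper468): the core of the bootstrap, independent of the channel

`E1.boot_core` (`Bdl/B2.lean`) with the conclusion stated before the channel is chosen. -/

open MeasureTheory Real Set Filter Topology
open scoped ENNReal ContDiff

namespace Vale.Agent.P245.E1

open LS

variable {n : ℕ}

/-- steps 4-6 -/
theorem boot_core2 (hK : StK n) (hR : StR n) (hT : StT n) (hCo : StCo n) (hRv : StRv n)
    (hU : StU n) (hDn : StDn n) (hP : StP n) {ρ0 : (Fin n → ℝ) → ℝ} {R δ κ σ s r x X D M K1 : ℝ}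
    (hρ : LCd ρ0) (hprob : IsProbabilityMeasure (mu ρ0)) (hcs : CSupp (mu ρ0) R)
    {N V : (Fin n → ℝ) → ℝ} (hδ : 0 < δ) (hδκ : 2000 * δ ≤ κ) (hs : s = 2 * δ) (hr : r = 3 * δ)
    (hDB : ∀ ρ ∈ Icc s r, DBL (mu ρ0) ρ κ D) (hσ : σ ∈ Icc s r) (hN : Pos N)
    (hN1 : EY (mu ρ0) σ N = 1) (hX0 : 0 ≤ X) (hXJ : X ≤ LS.FI (mu ρ0) σ N)
    (hx : 2 * δ * LS.FI (mu ρ0) σ N ≤ x) (hM0 : 0 ≤ M)
    (hMJ : M / κ ≤ 6 / 1000 * LS.FI (mu ρ0) σ N) (hVe : V = PH (σ - s) N)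
    (hVpos : Pos V)
    (hdn : ∀ ρ ∈ Icc s σ, Pos (PH (σ - ρ) N) ∧ EY (mu ρ0) ρ (PH (σ - ρ) N) = 1 ∧
        LS.HE (mu ρ0) ρ (PH (σ - ρ) N) - κ * LS.FI (mu ρ0) ρ (PH (σ - ρ) N) ≤ D ∧
        D - M ≤ LS.HE (mu ρ0) ρ (PH (σ - ρ) N) - κ * LS.FI (mu ρ0) ρ (PH (σ - ρ) N) ∧
        LS.FI (mu ρ0) ρ (PH (σ - ρ) N) ≤ LS.FI (mu ρ0) σ N ∧
        98 / 100 * LS.FI (mu ρ0) σ N ≤ LS.FI (mu ρ0) ρ (PH (σ - ρ) N) ∧
        Pred (mu ρ0) ρ (PH (σ - ρ) N) (sN (PH (σ - ρ) N)) x X)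
    (hup : ∀ ρ ∈ Icc s r, Pos (UL (mu ρ0) s ρ V) ∧
        EY (mu ρ0) ρ (UL (mu ρ0) s ρ V) = 1 ∧
        LS.HE (mu ρ0) ρ (UL (mu ρ0) s ρ V) - κ * LS.FI (mu ρ0) ρ (UL (mu ρ0) s ρ V) ≤ D ∧
        D - M ≤ LS.HE (mu ρ0) ρ (UL (mu ρ0) s ρ V) - κ * LS.FI (mu ρ0) ρ (UL (mu ρ0) s ρ V) ∧
        LS.FI (mu ρ0) ρ (UL (mu ρ0) s ρ V) ≤ LS.FI (mu ρ0) σ N ∧
        98 / 100 * LS.FI (mu ρ0) σ N ≤ LS.FI (mu ρ0) ρ (UL (mu ρ0) s ρ V) ∧
        IP (mu ρ0) ρ (UL (mu ρ0) s ρ V) (mm (mu ρ0) s ρ V) (mm (mu ρ0) s ρ V) ≤ M / κ ∧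
        Pred (mu ρ0) ρ (UL (mu ρ0) s ρ V) (us (mu ρ0) s ρ V) x X)
    (hJpos : 0 < LS.FI (mu ρ0) σ N) (hK0 : 0 ≤ K1) (hK1J : 10 * K1 ≤ LS.FI (mu ρ0) σ N)
    (hK1 : Pred (mu ρ0) r (UL (mu ρ0) s r V) (sN (UL (mu ρ0) s r V)) x K1) :
    ∃ c' : ℝ, c' ^ 2 ≤ 2 ∧
      (∀ i, SB (UL (mu ρ0) s σ (PH (r - s) (sN (UL (mu ρ0) s r V) i)))) ∧
      IP (mu ρ0) σ N
        (fun i y => -c' * UL (mu ρ0) s σ (PH (r - s) (sN (UL (mu ρ0) s r V) i)) y + 1 * sN N i y)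
        (fun i y => -c' * UL (mu ρ0) s σ (PH (r - s) (sN (UL (mu ρ0) s r V) i)) y + 1 * sN N i y)
        ≤ 10 * ((δ / (2 * κ) * K1 + M / κ) + 11 / 10 * (M / κ)) := by
  have := hprob
  set μ := mu ρ0 with hμ
  set J0 := LS.FI μ σ N with hJ0def
  have hκ : 0 < κ := by linarith only [hδ, hδκ]
  have hs0 : 0 < s := by rw [hs]; positivity
  have hsr : s ≤ r := by rw [hs, hr]; linarith only [hδ]
  have hrs : r - s = δ := by rw [hs, hr]; ring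
  have hss : s ∈ Icc s r := ⟨le_rfl, hsr⟩
  have hrr : r ∈ Icc s r := ⟨hsr, le_rfl⟩
  have hMκ0 : 0 ≤ M / κ := div_nonneg hM0 hκ.le
  have hδκ' : δ / κ ≤ 1 / 2000 := by rw [div_le_iff₀ hκ]; linarith only [hδκ]
  have hx0 : δ / 2 * J0 ≤ x := by
    have : 0 ≤ δ * J0 := by (clear * - hδ hJpos; positivity)
    linarith only [hx, this]
  obtain ⟨hKa, hKb, hKc⟩ := hK μ R hcs
  obtain ⟨_, _, hRb⟩ := hR μ R hcs
  have hUs : UL μ s s V = V := hKb s V hs0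
  set U1 := UL μ s r V with hU1def
  have hsnU : ∀ ρ ∈ Icc s r, ∀ i, SB (sN (UL μ s ρ V) i) := fun ρ hρI i =>
    (hup ρ hρI).1.div ((hup ρ hρI).1.sb.pd i)
  have hφ : ∀ i, SB (sN U1 i) := hsnU r hrr
  have hG : ∀ ρ : ℝ, ∀ i, SB (PH (r - ρ) (sN U1 i)) := fun ρ i => PH_sb (hφ i) _
  -- predictability of `G`
  have hPG : ∀ ρ ∈ Icc s r, Pred μ ρ (UL μ s ρ V) (fun i => PH (r - ρ) (sN U1 i)) x K1 := by
    intro ρ hρI
    have hρ0 : 0 < ρ := hs0.trans_le hρI.1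
    have h1 := (hT μ R hcs (UL μ s ρ V) ρ r x K1 (hup ρ hρI).1 hρ0 hρI.2).2.2.1
      (hup ρ hρI).2.1 (sN U1) hφ
    rw [hKc s ρ r V hs0 hρI.1 hρI.2 (bm_of_pos hVpos)] at h1
    exact h1 hK1
  -- calculus on the up leg
  obtain ⟨cH, cJ, dH, dJ, hUφ⟩ := hU μ R hcs V s r hVpos hs0 hsr
  obtain ⟨cg2, cc, dg2, dc⟩ := hUφ (sN U1) hφ
  set H : ℝ → ℝ := fun ρ => LS.HE μ ρ (UL μ s ρ V) with hHdef
  set J : ℝ → ℝ := fun ρ => LS.FI μ ρ (UL μ s ρ V) with hJdef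
  set g2 : ℝ → ℝ := fun ρ => IP μ ρ (UL μ s ρ V) (fun i => PH (r - ρ) (sN U1 i))
    (fun i => PH (r - ρ) (sN U1 i)) with hg2def
  set c : ℝ → ℝ := fun ρ => IP μ ρ (UL μ s ρ V) (fun i => PH (r - ρ) (sN U1 i))
    (sN (UL μ s ρ V)) with hcdef
  set DG : ℝ → ℝ := fun ρ => DE μ ρ (UL μ s ρ V) (fun i => PH (r - ρ) (sN U1 i)) with hDGdef
  set e : ℝ → ℝ := fun ρ => BI μ ρ (UL μ s ρ V) (fun i => PH (r - ρ) (sN U1 i))
    (sN (UL μ s ρ V)) with hedef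
  set B : ℝ → ℝ := fun ρ => BI μ ρ (UL μ s ρ V) (sN (UL μ s ρ V)) (sN (UL μ s ρ V)) with hBdef
  set Γ : ℝ → ℝ := fun ρ => LS.GA μ ρ (UL μ s ρ V) with hΓdef
  set al : ℝ → ℝ := fun ρ => D - H ρ + κ * J ρ with haldef
  set al' : ℝ → ℝ := fun ρ => 1 / 2 * J ρ - κ * (Γ ρ + 2 * B ρ) with hal'def
  have cal : ContinuousOn al (Icc s r) :=
    (continuousOn_const.sub cH).add (continuousOn_const.mul cJ)
  have dal : ∀ v ∈ Ioo s r, HasDerivAt al (al' v) v := by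
    intro v hv
    have h1 := (((dH v hv).const_sub D).add ((dJ v hv).const_mul κ))
    refine h1.congr_deriv ?_
    show -(-(1 / 2) * J v) + κ * -(Γ v + 2 * B v) = 1 / 2 * J v - κ * (Γ v + 2 * B v)
    ring
  have hal0 : ∀ v ∈ Icc s r, 0 ≤ al v := fun v hv => by
    have := (hup v hv).2.2.1
    show 0 ≤ D - H v + κ * J v
    have h2 : H v - κ * J v ≤ D := this
    linarith only [this]
  have halM : ∀ v ∈ Icc s r, al v ≤ M := fun v hv => by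
    have := (hup v hv).2.2.2.1
    show D - H v + κ * J v ≤ M
    have h2 : D - M ≤ H v - κ * J v := this
    linarith only [this]
  have hB0 : ∀ v ∈ Ioo s r, 0 ≤ B v := fun v hv =>
    (hP ρ0 R hρ hprob hcs v (UL μ s v V) _ _ (hs0.trans hv.1) (hup v ⟨hv.1.le, hv.2.le⟩).1
      (hsnU v ⟨hv.1.le, hv.2.le⟩) (hsnU v ⟨hv.1.le, hv.2.le⟩)).1
  have hJJ0 : ∀ v ∈ Icc s r, J v ≤ J0 := fun v hv => (hup v hv).2.2.2.2.1
  have hFI : ∀ v ∈ Icc s r, J v = IP μ v (UL μ s v V) (sN (UL μ s v V)) (sN (UL μ s v V)) :=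
    fun v hv => (hCo μ v _ (hup v hv).1).1.1
  have hGAe : ∀ v ∈ Icc s r, Γ v = DE μ v (UL μ s v V) (sN (UL μ s v V)) :=
    fun v hv => (hCo μ v _ (hup v hv).1).1.2
  have hg2e : ∀ v ∈ Icc s r, 0 ≤ g2 v ∧ 0 ≤ DG v ∧ c v ^ 2 ≤ g2 v * J v := fun v hv => by
    have h1 := (hCo μ v _ (hup v hv).1).2.1 (fun i => PH (r - v) (sN U1 i)) (sN (UL μ s v V))
      (hG v) (hsnU v hv)
    refine ⟨h1.1, h1.2.1, ?_⟩
    rw [hFI v hv]
    exact h1.2.2.2.1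
  -- `J` decreases, `g2` increases
  have hJanti : ∀ v ∈ Icc s r, J r ≤ J v := by
    have h1 := mono_of_deriv (f := fun v => -J v) (f' := fun v => Γ v + 2 * B v) (a := s) (b := r)
      cJ.neg (fun v hv => ((dJ v hv).neg).congr_deriv (by
        show - -(Γ v + 2 * B v) = _
        ring)) (fun v hv => by
        have hv' : v ∈ Icc s r := ⟨hv.1.le, hv.2.le⟩
        have h2 : 0 ≤ Γ v := by
          rw [hGAe v hv']
          exact ((hCo μ v _ (hup v hv').1).2.1 _ _ (hsnU v hv') (hsnU v hv')).2.1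
        have h3 := hB0 v hv
        show 0 ≤ Γ v + 2 * B v
        linarith only [h2, h3])
    intro v hv
    have h2 := h1 hv hrr hv.2
    simp only at h2
    linarith only [h2]
  have hg2mono : ∀ v ∈ Icc s r, g2 v ≤ g2 r := by
    have h1 := mono_of_deriv (f := g2) (f' := DG) (a := s) (b := r) cg2 dg2
      (fun v hv => (hg2e v ⟨hv.1.le, hv.2.le⟩).2.1)
    intro v hv
    exact h1 hv hrr hv.2
  have hGr : (fun i => PH (r - r) (sN U1 i)) = sN U1 := by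
    funext i
    rw [sub_self, PH_zero]
  have hg2r : g2 r = J r := by
    show IP μ r (UL μ s r V) (fun i => PH (r - r) (sN U1 i)) (fun i => PH (r - r) (sN U1 i)) = J r
    rw [hGr, hFI r hrr]
  have hcr : c r = J r := by
    show IP μ r (UL μ s r V) (fun i => PH (r - r) (sN U1 i)) (sN (UL μ s r V)) = J r
    rw [hGr, hFI r hrr]
  -- the reveal inequalities on the up leg
  set C : ℝ := 2 * X + 2 * (M / κ) with hCdef
  have hRsN : ∀ v ∈ Ioo s r, J v ≤ 2 * κ * Γ v + C + 2 * al v / δ := by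
    intro v hv
    have hvI : v ∈ Icc s r := ⟨hv.1.le, hv.2.le⟩
    have hv0 : 0 < v := hs0.trans hv.1
    obtain ⟨hUp, hUE, _, _, _, _, hmm, hPu⟩ := hup v hvI
    obtain ⟨_, hreg⟩ := hRb s v hs0 hv.1.le
    obtain ⟨_, hsb, _⟩ := hreg V hVpos
    have hPc : Pred μ v (UL μ s v V) (sN (UL μ s v V)) x C := by
      intro l hl hI
      obtain ⟨_, hc⟩ := (hCo μ v _ hUp).2.2 hUE l hl
      have h1 := (hc (us μ s v V) fun i => (hsb i).2.1).2.2 (mm μ s v V)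
        (fun i => (hsb i).2.2.1) 1 (-1)
      have h3 := (hc (mm μ s v V) fun i => (hsb i).2.2.1).2.1
      have h4 := hPu l hl hI
      have e1 : (fun i y => 1 * us μ s v V i y + -1 * mm μ s v V i y) = sN (UL μ s v V) := by
        funext i y
        unfold mm
        ring
      rw [e1] at h1
      linarith only [hmm, h1, h3, h4]
    have h1 := reveal_ineq hRv hv0.le hδ hUp hUE (hsnU v hvI) (hDB v hvI) hPc (by
      rw [← hFI v hvI]
      exact (mul_le_mul_of_nonneg_left (hJJ0 v hvI) (by positivity)).trans hx0)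
    rw [← hFI v hvI, ← hGAe v hvI] at h1
    exact h1
  have hRG : ∀ v ∈ Ioo s r, g2 v ≤ 2 * κ * DG v + K1 + 2 * al v / δ := by
    intro v hv
    have hvI : v ∈ Icc s r := ⟨hv.1.le, hv.2.le⟩
    have hv0 : 0 < v := hs0.trans hv.1
    have h1 := reveal_ineq hRv hv0.le hδ (hup v hvI).1 (hup v hvI).2.1 (hG v) (hDB v hvI)
      (hPG v hvI) (by
        have h2 : g2 v ≤ J0 := (hg2mono v hvI).trans (hg2r.le.trans (hJJ0 r hrr))
        exact (mul_le_mul_of_nonneg_left h2 (by positivity)).trans hx0)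
    exact h1
  have hBal : ∀ v ∈ Ioo s r, 2 * κ * B v ≤ C / 2 + al v / δ - al' v := by
    intro v hv
    have h1 := hRsN v hv
    show 2 * κ * B v ≤ C / 2 + al v / δ - (1 / 2 * J v - κ * (Γ v + 2 * B v))
    have e1 : 2 * al v / δ = 2 * (al v / δ) := by ring
    rw [e1] at h1
    linarith only [h1]
  -- the real-variable lemmas
  have hlen : r - s ≤ δ := hrs.le
  have hδκ1 : δ ≤ κ / 1000 := by linarith only [hδ, hδκ]
  set E1 : ℝ := δ / (2 * κ) * K1 + M / κ with hE1def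
  set η : ℝ := 11 / 10 * (M / κ) with hηdef
  have hJ1l : 98 / 100 * J0 ≤ J r := (hup r hrr).2.2.2.2.2.1
  have hJ1pos : 0 < J r := by linarith only [hJpos, hJ1l]
  have hη0 : 0 ≤ η := by (clear * - hM0 hκ; positivity)
  have hη1 : η ≤ J r / 100 := by
    rw [hηdef]; linarith only [hMJ, hJ1l, hJ1pos]
  have hE10 : 0 ≤ E1 := by (clear * - hδ hκ hK0 hM0; positivity)
  have hE1a : δ / (2 * κ) * K1 ≤ 1 / 4000 * K1 := by
    have e1 : δ / (2 * κ) = 1 / 2 * (δ / κ) := by (clear * - hκ hδ; field_simp)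
    rw [e1]
    exact mul_le_mul_of_nonneg_right (by linarith only [hδκ']) hK0
  have hE11 : E1 ≤ J r / 100 := by
    rw [hE1def]; linarith only [hMJ, hK1J, hJ1l, hJ1pos, hE1a]
  have hC0 : 0 ≤ C := by (clear * - hX0 hM0 hκ; positivity)
  have hC3 : C ≤ 3 * J r := by
    rw [hCdef]; linarith only [hXJ, hMJ, hJ1l, hJ1pos]
  have b1 := g2_bound (g2 := g2) (DG := DG) hκ hδ hlen hK0 hM0 halM cg2 dg2 hRG
  rw [hg2r] at b1
  have hdu : ∀ v ∈ Ioo s r, HasDerivAt (fun v => κ * J v - al v) (-J v / 2) v := by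
    intro v hv
    have e1 : (fun v => κ * J v - al v) = fun v => H v - D := by
      funext v
      show κ * J v - (D - H v + κ * J v) = H v - D
      ring
    rw [e1]
    refine ((dH v hv).sub_const D).congr_deriv ?_
    show -(1 / 2) * J v = -J v / 2
    ring
  have b2 := J_bound (J := J) hκ hlen hδκ1 hM0 hsr hal0 halM cal cJ hdu
  have hesq : ∀ v ∈ Ioo s r, ∀ lam : ℝ,
      (e v - lam * B v) ^ 2 ≤ (g2 v - 2 * lam * c v + lam ^ 2 * J v) * (B v / v) := by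
    intro v hv lam
    have hvI : v ∈ Icc s r := ⟨hv.1.le, hv.2.le⟩
    have hv0 : 0 < v := hs0.trans hv.1
    have hsbc : ∀ i, SB fun y => 1 * PH (r - v) (sN U1 i) y + -lam * sN (UL μ s v V) i y :=
      fun i => ((hG v i).const_mul _).add ((hsnU v hvI i).const_mul _)
    obtain ⟨_, _, hlin1, hlin2⟩ := hP ρ0 R hρ hprob hcs v (UL μ s v V)
      (fun i y => 1 * PH (r - v) (sN U1 i) y + -lam * sN (UL μ s v V) i y) (sN (UL μ s v V))
      hv0 (hup v hvI).1 hsbc (hsnU v hvI)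
    obtain ⟨_, _, _, hlin3⟩ := hP ρ0 R hρ hprob hcs v (UL μ s v V)
      (fun i => PH (r - v) (sN U1 i)) (sN (UL μ s v V))
      hv0 (hup v hvI).1 (hG v) (hsnU v hvI)
    have h2 := hlin3 (sN (UL μ s v V)) 1 (-lam) (hsnU v hvI)
    have h3 := ((hCo μ v _ (hup v hvI).1).2.1 (fun i => PH (r - v) (sN U1 i)) (sN (UL μ s v V))
      (hG v) (hsnU v hvI)).2.2.2.2 1 (-lam)
    rw [h2, h3] at hlin1
    have h4 : (1 * e v + -lam * B v) ^ 2 ≤ 1 / v * (1 ^ 2 * g2 v + 2 * 1 * -lam * c v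
      + (-lam) ^ 2 * IP μ v (UL μ s v V) (sN (UL μ s v V)) (sN (UL μ s v V))) * B v := hlin1
    rw [← hFI v hvI] at h4
    calc (e v - lam * B v) ^ 2 = (1 * e v + -lam * B v) ^ 2 := by ring
      _ ≤ _ := h4
      _ = _ := by ring
  have b3 := c_bound (α := al) (α' := al') (J := J) (g2 := g2) (c := c) (e := e) (B := B)
    (M := M) (J1 := J r) (E1 := E1) (η := η) (C := C) hs0 hκ hδ hsr hlen (by rw [hs]; linarith only [])
    hδκ1 hC0 hJ1pos hE10 hη0 (by rw [hηdef]; linarith only [hMκ0]) hη1 hE11 hC3 cal dal hal0 halM hB0 hBal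
    cc dc hcr hesq b1 hJanti (fun v hv => (b2 v hv).trans (by rw [hηdef]; linarith only [hMκ0]))
    (fun v hv => (hg2e v hv).2.2)
  -- down leg
  have hdn' : ∀ ρ ∈ Icc s σ, ρ ∈ Icc s r := fun ρ hρI => ⟨hρI.1, hρI.2.trans hσ.2⟩
  have hssσ : s ∈ Icc s σ := ⟨le_rfl, hσ.1⟩
  have hσσ : σ ∈ Icc s σ := ⟨hσ.1, le_rfl⟩
  have hψ : ∀ i, SB (PH (r - s) (sN U1 i)) := hG s
  obtain ⟨cHd, cJd, dHd, dJd, hDφ⟩ := hDn μ R hcs N s σ hN hs0 hσ.1
  obtain ⟨cr2, dr2, hpair⟩ := hDφ (fun i => PH (r - s) (sN U1 i)) hψ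
  have hsbR : ∀ ρ ∈ Icc s σ, ∀ i, SB (UL μ s ρ (PH (r - s) (sN U1 i))) := fun ρ hρI i =>
    (hRb s ρ hs0 hρI.1).1 _ (hψ i)
  have hPR : ∀ ρ ∈ Icc s σ, Pred μ ρ (PH (σ - ρ) N)
      (fun i => UL μ s ρ (PH (r - s) (sN U1 i))) x K1 := by
    intro ρ hρI
    have h1 := (hT μ R hcs (PH (σ - ρ) N) s ρ x K1 (hdn ρ hρI).1 hs0 hρI.1).2.2.2
      (hdn ρ hρI).2.1 (fun i => PH (r - s) (sN U1 i)) hψ
    have e1 : PH (ρ - s) (PH (σ - ρ) N) = V := by
      rw [PH_PH hN.sb (by linarith only [hρI.1]) (by linarith only [hρI.2]), hVe]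
      congr 1
      ring
    rw [e1] at h1
    apply h1
    have h2 := hPG s hss
    rwa [hUs] at h2
  set Jd : ℝ → ℝ := fun ρ => LS.FI μ ρ (PH (σ - ρ) N) with hJddef
  set Hd : ℝ → ℝ := fun ρ => LS.HE μ ρ (PH (σ - ρ) N) with hHddef
  set r2 : ℝ → ℝ := fun ρ => IP μ ρ (PH (σ - ρ) N) (fun i => UL μ s ρ (PH (r - s) (sN U1 i)))
    (fun i => UL μ s ρ (PH (r - s) (sN U1 i))) with hr2def
  set DR : ℝ → ℝ := fun ρ => DE μ ρ (PH (σ - ρ) N) (fun i => UL μ s ρ (PH (r - s) (sN U1 i)))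
    with hDRdef
  set ald : ℝ → ℝ := fun ρ => D - Hd ρ + κ * Jd ρ with halddef
  have cald : ContinuousOn ald (Icc s σ) :=
    (continuousOn_const.sub cHd).add (continuousOn_const.mul cJd)
  have hald0 : ∀ v ∈ Icc s σ, 0 ≤ ald v := fun v hv => by
    have h2 : Hd v - κ * Jd v ≤ D := (hdn v hv).2.2.1
    show 0 ≤ D - Hd v + κ * Jd v
    linarith only [h2]
  have haldM : ∀ v ∈ Icc s σ, ald v ≤ M := fun v hv => by
    have h2 : D - M ≤ Hd v - κ * Jd v := (hdn v hv).2.2.2.1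
    show D - Hd v + κ * Jd v ≤ M
    linarith only [h2]
  have hDR0 : ∀ v ∈ Icc s σ, 0 ≤ DR v := fun v hv =>
    ((hCo μ v _ (hdn v hv).1).2.1 (fun i => UL μ s v (PH (r - s) (sN U1 i))) _ (hsbR v hv)
      (hsbR v hv)).2.1
  have hr2anti : ∀ v ∈ Icc s σ, r2 v ≤ r2 s := by
    have h1 := mono_of_deriv (f := fun v => -r2 v) (f' := DR) (a := s) (b := σ)
      cr2.neg (fun v hv => ((dr2 v hv).neg).congr_deriv (by
        show - -(DR v) = DR v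
        ring)) (fun v hv => hDR0 v ⟨hv.1.le, hv.2.le⟩)
    intro v hv
    have h2 := h1 hssσ hv hv.1
    simp only at h2
    linarith only [h2]
  have hVs : PH (σ - s) N = V := hVe.symm
  have hKs : ∀ h : (Fin n → ℝ) → ℝ, UL μ s s h = h := fun h => hKb s h hs0
  have hr2s : r2 s = g2 s := by
    show IP μ s (PH (σ - s) N) (fun i => UL μ s s (PH (r - s) (sN U1 i)))
      (fun i => UL μ s s (PH (r - s) (sN U1 i))) = IP μ s (UL μ s s V)
        (fun i => PH (r - s) (sN U1 i)) (fun i => PH (r - s) (sN U1 i))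
    simp only [hKs, hVs]
  have hRR : ∀ v ∈ Ioo s σ, r2 v ≤ 2 * κ * DR v + K1 + 2 * ald v / δ := by
    intro v hv
    have hvI : v ∈ Icc s σ := ⟨hv.1.le, hv.2.le⟩
    have hv0 : 0 < v := hs0.trans hv.1
    have h1 := reveal_ineq hRv hv0.le hδ (hdn v hvI).1 (hdn v hvI).2.1 (hsbR v hvI)
      (hDB v (hdn' v hvI)) (hPR v hvI) (by
        have h2 : r2 v ≤ J0 := (hr2anti v hvI).trans (hr2s.le.trans ((hg2mono s hss).trans
          (hg2r.le.trans (hJJ0 r hrr))))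
        exact (mul_le_mul_of_nonneg_left h2 (by positivity)).trans hx0)
    exact h1
  have hlenσ : σ - s ≤ δ := by linarith only [hs, hr, hσ.2]
  have b4 := r2_bound (r2 := r2) (DR := DR) hκ hδ hσ.1 hlenσ hK0 hM0 haldM cr2 dr2 hRR
  have hdud : ∀ v ∈ Ioo s σ, HasDerivAt (fun v => κ * Jd v - ald v) (Jd v / 2) v := by
    intro v hv
    have e1 : (fun v => κ * Jd v - ald v) = fun v => Hd v - D := by
      funext v
      show κ * Jd v - (D - Hd v + κ * Jd v) = Hd v - D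
      ring
    rw [e1]
    refine ((dHd v hv).sub_const D).congr_deriv ?_
    show 1 / 2 * Jd v = Jd v / 2
    ring
  have b5 := Jstar_bound (J := Jd) hκ hlenσ hδκ1 hM0 hσ.1 hald0 haldM cald cJd hdud
  have hPH0 : PH (σ - σ) N = N := by rw [sub_self, PH_zero]
  have hJdσ : Jd σ = J0 := by
    show LS.FI μ σ (PH (σ - σ) N) = J0
    rw [hPH0]
  have hJds : Jd s = J s := by
    show LS.FI μ s (PH (σ - s) N) = LS.FI μ s (UL μ s s V)
    rw [hVs, hUs]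
  rw [hJdσ, hJds] at b5
  rw [hr2s] at b4
  -- the exponents
  set a1 : ℝ := 1 / (2 * κ) * (σ - s) with ha1
  set a2 : ℝ := 1 / (2 * κ) * (r - s) with ha2
  have hik : 0 < 1 / (2 * κ) := by positivity
  have ha10 : 0 ≤ a1 := mul_nonneg hik.le (by linarith only [hσ.1])
  have ha20 : 0 ≤ a2 := mul_nonneg hik.le (by linarith only [hδ, hs, hr])
  have ha1b : a1 ≤ 1 / 4000 := by
    have h1 : a1 ≤ 1 / (2 * κ) * δ := mul_le_mul_of_nonneg_left hlenσ hik.le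
    have e1 : 1 / (2 * κ) * δ = 1 / 2 * (δ / κ) := by (clear * - hδ hκ; field_simp)
    linarith only [hδκ', h1, e1]
  have ha2b : a2 ≤ 1 / 4000 := by
    have h1 : a2 ≤ 1 / (2 * κ) * δ := mul_le_mul_of_nonneg_left hlen hik.le
    have e1 : 1 / (2 * κ) * δ = 1 / 2 * (δ / κ) := by (clear * - hδ hκ; field_simp)
    linarith only [hδκ', h1, e1]
  have hexp1 : exp a1 ≤ 1.001 := (exp_le_one_add_two_mul ha10 (by linarith only [ha1b])).trans (by linarith only [ha1b])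
  have hexp2 : exp (-a1) ≤ 1 := exp_le_one_iff.2 (by linarith only [ha10])
  have hbs := b1 s hss
  have hbJ := b2 s hss
  have hz : exp (-(a1 + a2)) = exp (-a1) * exp (-a2) := by rw [← exp_add]; ring_nf
  have hz2 : exp (a1 + a2) = exp a1 * exp a2 := exp_add _ _
  have hr2fin : r2 σ ≤ exp (-(a1 + a2)) * J r + 2 * E1 := by
    have h1 : exp (-a1) * g2 s ≤ exp (-a1) * (exp (-a2) * J r + E1) :=
      mul_le_mul_of_nonneg_left hbs (exp_pos _).le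
    have h2 : exp (-a1) * E1 ≤ 1 * E1 := mul_le_mul_of_nonneg_right hexp2 hE10
    have e1 : exp (-a1) * (exp (-a2) * J r + E1) = exp (-a1) * exp (-a2) * J r + exp (-a1) * E1 := by
      ring
    rw [hz]
    linarith only [b4, h1, h2]
  have hJfin : J0 ≤ exp (a1 + a2) * J r + 4 * η := by
    have h1 : exp a1 * J s ≤ exp a1 * (exp a2 * J r + 2 * (M / κ)) :=
      mul_le_mul_of_nonneg_left hbJ (exp_pos _).le
    have h2 : exp a1 * (2 * (M / κ)) ≤ 1.001 * (2 * (M / κ)) :=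
      mul_le_mul_of_nonneg_right hexp1 (by (clear * - hM0 hκ; positivity))
    have e1 : exp a1 * (exp a2 * J r + 2 * (M / κ)) = exp a1 * exp a2 * J r
      + exp a1 * (2 * (M / κ)) := by ring
    rw [hz2, hηdef]
    linarith only [hMκ0, b5, h1, h2]
  -- pairing at level `σ`
  set Rσ : Fin n → (Fin n → ℝ) → ℝ := fun i => UL μ s σ (PH (r - s) (sN U1 i)) with hRσdef
  have hsbRσ : ∀ i, SB (Rσ i) := hsbR σ hσσ
  have hsbN : ∀ i, SB (sN N i) := fun i => hN.div (hN.sb.pd i)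
  have hcs1 : IP μ σ N Rσ (sN N) = c s := by
    have h1 := hpair σ hσσ
    rw [hPH0] at h1
    rw [h1]
    show IP μ s (PH (σ - s) N) (fun i => PH (r - s) (sN U1 i)) (sN (PH (σ - s) N))
      = IP μ s (UL μ s s V) (fun i => PH (r - s) (sN U1 i)) (sN (UL μ s s V))
    rw [hVs, hUs]
  have hr2σ : IP μ σ N Rσ Rσ = r2 σ := by
    show IP μ σ N Rσ Rσ = IP μ σ (PH (σ - σ) N) Rσ Rσ
    rw [hPH0]
  obtain ⟨⟨hFIσ, _⟩, hquad, hchan⟩ := hCo μ σ N hN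
  obtain ⟨_, _, hcomm, hCSσ, hq⟩ := hquad Rσ (sN N) hsbRσ hsbN
  rw [hcs1, hr2σ, ← hFIσ] at hCSσ
  obtain ⟨f1, f2, f3⟩ := final_deficit (J1 := J r) (cs := c s) (r2 := r2 σ) (Jst := J0)
    (E1 := E1) (η := η) (z := a1 + a2) hJ1pos hE10 hη0 hE11 hη1 (by linarith only [ha10, ha20]) (by linarith only [ha1b, ha2b])
    b3 hr2fin hJfin hJpos.le hCSσ
  have hr2pos : 0 < r2 σ := by linarith only [hJ1pos, f1]
  set cc' : ℝ := c s / r2 σ with hcc'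
  -- conclusion
  have k3 := hq (-cc') 1
  rw [hcs1, hr2σ, ← hFIσ] at k3
  have k4 : (-cc') ^ 2 * r2 σ + 2 * -cc' * 1 * c s + 1 ^ 2 * J0 = J0 - c s ^ 2 / r2 σ := by
    rw [hcc']
    field_simp
    ring
  refine ⟨cc', f3, hsbRσ, ?_⟩
  have k5 : IP μ σ N (fun i y => -cc' * Rσ i y + 1 * sN N i y)
      (fun i y => -cc' * Rσ i y + 1 * sN N i y) ≤ 10 * (E1 + η) := by
    rw [k3, k4]
    exact f2
  exact k5

end Vale.Agent.P245.E1
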